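/-
Helper44 — S0175 project, package G3, general part 4: periodic charts.

`Y₀` = a finite-dimensional real normed space of "shape parameters" with a Haar measure `μY`,
parameters `p = (b, t) : Y₀ × ℝ`, `t` an angle in turns.  A `PerChart U Φ` is a map
`Φ : Y₀ × ℝ → Y₀ × ℝ`, smooth on `U × ℝ` (`U` open), `1`-periodic in `t`, injective on
`U × [0,1)` and with injective derivative on `U × ℝ`.

For a smooth `h ≥ 0` with compact support inside `U`, the image under `Φ` of the measure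
`(h² dμY) ⊗ Leb|[0,1)` has the density `(chartSqrt Φ U h)²` w.r.t. `μY ⊗ Leb`, where
`chartSqrt Φ U h` is a smooth, compactly supported, nonnegative function.
No explicit Jacobian and no global inverse of `Φ` is needed.
-/
import Crest.Agent.Helper44.CoV.PushFun
import Crest.Agent.Helper44.CoV.Det
import Crest.Agent.Helper44.CoV.MapDensity

set_option autoImplicit false
set_option linter.unusedSectionVars false
open Set Filter Topology MeasureTheory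
open scoped ContDiff ENNReal

namespace Crest.Agent.Helper44

section Periodic

variable {Y₀ : Type*} [NormedAddCommGroup Y₀] [NormedSpace ℝ Y₀] [FiniteDimensional ℝ Y₀]

/-- A periodic chart: smooth on `U × ℝ`, `1`-periodic in the last variable, injective on
`U × [0,1)`, injective derivative on `U × ℝ`. -/
structure PerChart (U : Set Y₀) (Φ : Y₀ × ℝ → Y₀ × ℝ) : Prop where
  isOpen : IsOpen U
  smooth : ∀ p : Y₀ × ℝ, p.1 ∈ U → ContDiffAt ℝ ∞ Φ p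
  per : ∀ b t, Φ (b, t + 1) = Φ (b, t)
  inj : ∀ b ∈ U, ∀ b' ∈ U, ∀ t ∈ Ico (0:ℝ) 1, ∀ t' ∈ Ico (0:ℝ) 1,
    Φ (b, t) = Φ (b', t') → b = b' ∧ t = t'
  dinj : ∀ p : Y₀ × ℝ, p.1 ∈ U → ∀ v, fderiv ℝ Φ p v = 0 → v = 0

/-- the Jacobian determinant -/
noncomputable def jac (Φ : Y₀ × ℝ → Y₀ × ℝ) (p : Y₀ × ℝ) : ℝ := (fderiv ℝ Φ p).det

/-- the square root of the transported density, in parameters -/
noncomputable def sqrtDens (Φ : Y₀ × ℝ → Y₀ × ℝ) (h : Y₀ → ℝ) (p : Y₀ × ℝ) : ℝ :=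
  h p.1 / Real.sqrt |jac Φ p|

/-- the square root of the density of the image measure -/
noncomputable def chartSqrt (Φ : Y₀ × ℝ → Y₀ × ℝ) (U : Set Y₀) (h : Y₀ → ℝ) :
    Y₀ × ℝ → ℝ :=
  pushFun Φ (U ×ˢ (univ : Set ℝ)) (sqrtDens Φ h)

namespace PerChart

variable {U : Set Y₀} {Φ : Y₀ × ℝ → Y₀ × ℝ}

theorem per_nat (hΦ : PerChart U Φ) (b : Y₀) (t : ℝ) (n : ℕ) : Φ (b, t + n) = Φ (b, t) := by
  induction n with
  | zero => simp
  | succ n ih =>
    rw [Nat.cast_succ, ← add_assoc, hΦ.per, ih]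

theorem per_int (hΦ : PerChart U Φ) (b : Y₀) (t : ℝ) (n : ℤ) : Φ (b, t + n) = Φ (b, t) := by
  obtain ⟨m, rfl | rfl⟩ := Int.eq_nat_or_neg n
  · simpa using hΦ.per_nat b t m
  · have := hΦ.per_nat b (t + ((-(m:ℤ) : ℤ) : ℝ)) m
    rw [← this]
    congr 2
    push_cast
    ring

theorem per_fract (hΦ : PerChart U Φ) (b : Y₀) (t : ℝ) : Φ (b, Int.fract t) = Φ (b, t) := by
  have := hΦ.per_int b t (-⌊t⌋)
  rw [← this]
  congr 2
  rw [Int.fract]
  push_cast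
  ring

theorem isOpen_dom (hΦ : PerChart U Φ) : IsOpen (U ×ˢ (univ : Set ℝ)) :=
  hΦ.isOpen.prod isOpen_univ

/-- two parameters in `U × ℝ` with the same image differ by an integer shift of the angle -/
theorem fib (hΦ : PerChart U Φ) {p p' : Y₀ × ℝ} (hp : p.1 ∈ U) (hp' : p'.1 ∈ U)
    (h : Φ p = Φ p') : ∃ n : ℤ, p' = (p.1, p.2 + n) := by
  have h1 : Φ (p.1, Int.fract p.2) = Φ (p'.1, Int.fract p'.2) := by
    rw [hΦ.per_fract, hΦ.per_fract]
    exact h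
  obtain ⟨hb, ht⟩ := hΦ.inj p.1 hp p'.1 hp' (Int.fract p.2)
    ⟨Int.fract_nonneg _, Int.fract_lt_one _⟩ (Int.fract p'.2)
    ⟨Int.fract_nonneg _, Int.fract_lt_one _⟩ h1
  refine ⟨⌊p'.2⌋ - ⌊p.2⌋, ?_⟩
  apply Prod.ext
  · exact hb.symm
  · show p'.2 = p.2 + ((⌊p'.2⌋ - ⌊p.2⌋ : ℤ) : ℝ)
    have e1 := Int.fract_add_floor p.2
    have e2 := Int.fract_add_floor p'.2
    push_cast
    linarith

theorem fderiv_shift (hΦ : PerChart U Φ) (p : Y₀ × ℝ) (n : ℤ) :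
    fderiv ℝ Φ (p.1, p.2 + n) = fderiv ℝ Φ p := by
  have hfun : (fun q : Y₀ × ℝ => Φ (q + ((0 : Y₀), (n : ℝ)))) = Φ := by
    funext q
    have := hΦ.per_int q.1 q.2 n
    rw [← this]
    congr 1
    ext <;> simp
  have h2 := fderiv_comp_add_right (𝕜 := ℝ) (f := Φ) (x := p) ((0 : Y₀), (n : ℝ))
  rw [hfun] at h2
  rw [h2]
  congr 1
  ext <;> simp

theorem jac_shift (hΦ : PerChart U Φ) (p : Y₀ × ℝ) (n : ℤ) :
    jac Φ (p.1, p.2 + n) = jac Φ p := by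
  unfold jac
  rw [hΦ.fderiv_shift]

theorem jac_ne_zero (hΦ : PerChart U Φ) {p : Y₀ × ℝ} (hp : p.1 ∈ U) : jac Φ p ≠ 0 :=
  clm_det_ne_zero_of_injective (hΦ.dinj p hp)

theorem sqrtDens_fib (hΦ : PerChart U Φ) (h : Y₀ → ℝ) :
    ∀ p ∈ U ×ˢ (univ : Set ℝ), ∀ p' ∈ U ×ˢ (univ : Set ℝ), Φ p = Φ p' →
      sqrtDens Φ h p = sqrtDens Φ h p' := by
  intro p hp p' hp' hpp'
  obtain ⟨n, rfl⟩ := hΦ.fib hp.1 hp'.1 hpp'
  unfold sqrtDens
  rw [hΦ.jac_shift]

theorem contDiffAt_sqrtDens (hΦ : PerChart U Φ) {h : Y₀ → ℝ} (hh : ContDiff ℝ ∞ h)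
    {p : Y₀ × ℝ} (hp : p.1 ∈ U) : ContDiffAt ℝ ∞ (sqrtDens Φ h) p := by
  have hj : ContDiffAt ℝ ∞ (jac Φ) p := contDiffAt_det_fderiv (hΦ.smooth p hp)
  have hj0 : jac Φ p ≠ 0 := hΦ.jac_ne_zero hp
  have h1 : ContDiffAt ℝ ∞ (fun q => Real.sqrt |jac Φ q|) p :=
    (hj.abs hj0).sqrt (abs_ne_zero.2 hj0)
  have h2 : ContDiffAt ℝ ∞ (fun q : Y₀ × ℝ => h q.1) p :=
    (hh.comp contDiff_fst).contDiffAt
  have h3 : Real.sqrt |jac Φ p| ≠ 0 := (Real.sqrt_pos.2 (abs_pos.2 hj0)).ne'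
  exact h2.div h1 h3

theorem sqrtDens_nonneg (Φ : Y₀ × ℝ → Y₀ × ℝ) {h : Y₀ → ℝ} (hh0 : ∀ b, 0 ≤ h b)
    (p : Y₀ × ℝ) : 0 ≤ sqrtDens Φ h p :=
  div_nonneg (hh0 _) (Real.sqrt_nonneg _)

theorem chartSqrt_nonneg (Φ : Y₀ × ℝ → Y₀ × ℝ) (U : Set Y₀) {h : Y₀ → ℝ}
    (hh0 : ∀ b, 0 ≤ h b) (y : Y₀ × ℝ) : 0 ≤ chartSqrt Φ U h y :=
  pushFun_nonneg (fun p _ => sqrtDens_nonneg Φ hh0 p) y

/-- the image of the support: contained in the image of `tsupport h × [0,1]` -/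
theorem sqrtDens_supp (hΦ : PerChart U Φ) {h : Y₀ → ℝ} :
    ∀ p ∈ U ×ˢ (univ : Set ℝ), sqrtDens Φ h p ≠ 0 →
      Φ p ∈ Φ '' (tsupport h ×ˢ Icc (0:ℝ) 1) := by
  intro p _ hne
  have hh : h p.1 ≠ 0 := by
    intro h0
    apply hne
    simp [sqrtDens, h0]
  refine ⟨(p.1, Int.fract p.2), ⟨subset_tsupport _ hh, ?_⟩, hΦ.per_fract p.1 p.2⟩
  exact ⟨Int.fract_nonneg _, (Int.fract_lt_one _).le⟩

theorem support_chartSqrt_subset (hΦ : PerChart U Φ) {h : Y₀ → ℝ} :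
    Function.support (chartSqrt Φ U h) ⊆ Φ '' (tsupport h ×ˢ Icc (0:ℝ) 1) :=
  support_pushFun_subset hΦ.sqrtDens_supp

theorem contDiff_chartSqrt (hΦ : PerChart U Φ) {h : Y₀ → ℝ} (hh : ContDiff ℝ ∞ h)
    (hc : HasCompactSupport h) (hsub : tsupport h ⊆ U) :
    ContDiff ℝ ∞ (chartSqrt Φ U h) ∧ HasCompactSupport (chartSqrt Φ U h) := by
  have hK : IsCompact (tsupport h ×ˢ Icc (0:ℝ) 1) := hc.isCompact.prod isCompact_Icc
  have hKV : tsupport h ×ˢ Icc (0:ℝ) 1 ⊆ U ×ˢ (univ : Set ℝ) :=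
    Set.prod_mono hsub (subset_univ _)
  refine contDiff_pushFun hΦ.isOpen_dom (fun p hp => hΦ.smooth p hp.1) ?_
    (fun p hp => hΦ.contDiffAt_sqrtDens hh hp.1) (hΦ.sqrtDens_fib h) hK hKV hΦ.sqrtDens_supp
  intro p hp
  have hd : DifferentiableAt ℝ Φ p := (hΦ.smooth p hp.1).differentiableAt (by simp)
  exact exists_equiv_of_det_ne_zero hd (hΦ.jac_ne_zero hp.1)

variable [MeasurableSpace Y₀] [BorelSpace Y₀]

/-- the image of `(h² dμY) ⊗ Leb|[0,1)` under a periodic chart has density `(chartSqrt)²` -/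
theorem map_chart (hΦ : PerChart U Φ) (μY : Measure Y₀) [μY.IsAddHaarMeasure]
    {h : Y₀ → ℝ} (hh : Continuous h) (hsub : Function.support h ⊆ U) :
    ((μY.withDensity (fun b => ENNReal.ofReal (h b ^ 2))).prod
        (volume.restrict (Ico (0:ℝ) 1))).map Φ =
      (μY.prod volume).withDensity (fun y => ENNReal.ofReal (chartSqrt Φ U h y ^ 2)) := by
  have hUm : MeasurableSet U := hΦ.isOpen.measurableSet
  have hV₀ : MeasurableSet (U ×ˢ Ico (0:ℝ) 1) := hUm.prod measurableSet_Ico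
  have hfm : Measurable (fun b => ENNReal.ofReal (h b ^ 2)) :=
    (hh.pow 2).measurable.ennreal_ofReal
  -- rewrite the left measure as a density on `U × [0,1)`
  have hind : U.indicator (fun b => ENNReal.ofReal (h b ^ 2)) =
      (fun b => ENNReal.ofReal (h b ^ 2)) := by
    funext b
    by_cases hb : b ∈ U
    · rw [Set.indicator_of_mem hb]
    · rw [Set.indicator_of_notMem hb]
      have : h b = 0 := by
        by_contra hne
        exact hb (hsub hne)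
      simp [this]
  have hL : (μY.withDensity (fun b => ENNReal.ofReal (h b ^ 2))).prod
        (volume.restrict (Ico (0:ℝ) 1)) =
      ((μY.prod volume).restrict (U ×ˢ Ico (0:ℝ) 1)).withDensity
        (fun p => ENNReal.ofReal (|jac Φ p| * sqrtDens Φ h p ^ 2)) := by
    have e1 : μY.withDensity (fun b => ENNReal.ofReal (h b ^ 2)) =
        (μY.withDensity (fun b => ENNReal.ofReal (h b ^ 2))).restrict U := by
      conv_lhs => rw [← hind]
      rw [withDensity_indicator hUm, restrict_withDensity hUm]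
    rw [e1, Measure.prod_restrict, prod_withDensity_left hfm,
      restrict_withDensity hV₀]
    apply withDensity_congr_ae
    refine (ae_restrict_iff' hV₀).2 (Eventually.of_forall ?_)
    intro p hp
    have hj0 : jac Φ p ≠ 0 := hΦ.jac_ne_zero hp.1
    have hpos : 0 < |jac Φ p| := abs_pos.2 hj0
    show ENNReal.ofReal (h p.1 ^ 2) = ENNReal.ofReal (|jac Φ p| * sqrtDens Φ h p ^ 2)
    congr 1
    unfold sqrtDens
    rw [div_pow, Real.sq_sqrt hpos.le]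
    field_simp
  rw [hL]
  have hmain := map_withDensity_pushFun (μ := μY.prod volume) (Φ := Φ)
    (Φ' := fun p => fderiv ℝ Φ p) (V := U ×ˢ (univ : Set ℝ)) (V₀ := U ×ˢ Ico (0:ℝ) 1)
    (G := fun p => sqrtDens Φ h p ^ 2) hV₀ (Set.prod_mono subset_rfl (subset_univ _)) ?_ ?_ ?_ ?_
  · rw [show (fun p => ENNReal.ofReal (|jac Φ p| * sqrtDens Φ h p ^ 2)) =
        (fun p => ENNReal.ofReal (|(fderiv ℝ Φ p).det| * sqrtDens Φ h p ^ 2)) from rfl, hmain]
    congr 1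
    funext y
    rw [pushFun_sq]
    rfl
  · rintro y ⟨p, hp, rfl⟩
    exact ⟨(p.1, Int.fract p.2), ⟨hp.1, Int.fract_nonneg _, Int.fract_lt_one _⟩,
      hΦ.per_fract p.1 p.2⟩
  · intro p hp
    exact ((hΦ.smooth p hp.1).differentiableAt (by simp)).hasFDerivAt.hasFDerivWithinAt
  · intro p hp p' hp' hpp'
    obtain ⟨hb, ht⟩ := hΦ.inj p.1 hp.1 p'.1 hp'.1 p.2 hp.2 p'.2 hp'.2 hpp'
    exact Prod.ext hb ht
  · intro p hp p' hp' hpp'
    show sqrtDens Φ h p ^ 2 = sqrtDens Φ h p' ^ 2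
    rw [hΦ.sqrtDens_fib h p hp p' hp' hpp']

end PerChart

end Periodic

end Crest.Agent.Helper44
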